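import Crest.Agent.N49.To.Bd1

/-!
# Row 49 (helper29): Hyers-Ulam on a lattice ball, modulo a separated subgroup
-/

set_option autoImplicit false
open Finset Module

namespace Crest.Agent.N49.Hu

open La To

variable {V : Type*} [AddCommGroup V] [Module ℝ V]

/-- `x` is within `a` of the subgroup `Z` -/
def Nr (S : Sz V) (Z : AddSubgroup V) (x : V) (a : ℝ) : Prop := ∃ z ∈ Z, S.Bd (x - z) a

variable {S : Sz V} {Z : AddSubgroup V} {x y : V} {a b : ℝ}

theorem bd_neg (h : S.Bd x a) : S.Bd (-x) a := by simpa using S.smul (-1) h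

theorem bd_sum {κ : Type*} (s : Finset κ) {f : κ → V} (h : ∀ i ∈ s, S.Bd (f i) a) :
    S.Bd (∑ i ∈ s, f i) (s.card * a) := by
  classical
  induction s using Finset.induction_on with
  | empty => simpa using S.zero
  | insert j s hj ih =>
    rw [sum_insert hj, card_insert_of_notMem hj, Nat.cast_succ, add_mul, one_mul, add_comm _ a]
    exact S.add (h j (mem_insert_self _ _)) (ih fun i hi => h i (mem_insert_of_mem hi))

theorem Nr.add (h : Nr S Z x a) (k : Nr S Z y b) : Nr S Z (x + y) (a + b) :=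
  let ⟨z, p, q⟩ := h
  let ⟨z', p', q'⟩ := k
  ⟨z + z', Z.add_mem p p', by rw [add_sub_add_comm]; exact S.add q q'⟩

theorem Nr.neg (h : Nr S Z x a) : Nr S Z (-x) a :=
  let ⟨z, p, q⟩ := h
  ⟨-z, Z.neg_mem p, by rw [neg_sub_neg, ← neg_sub]; exact bd_neg q⟩

theorem Nr.sub (h : Nr S Z x a) (k : Nr S Z y b) : Nr S Z (x - y) (a + b) := by
  rw [sub_eq_add_neg]; exact h.add k.neg

theorem Nr.of (h : Nr S Z x a) (e : y = x) (k : a ≤ b) : Nr S Z y b :=
  let ⟨z, p, q⟩ := h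
  ⟨z, p, e ▸ S.mono q k⟩

theorem Nr.mem (h : x ∈ Z) : Nr S Z x 0 := ⟨x, h, by rw [sub_self]; exact S.zero⟩

theorem Nr.bd (h : S.Bd x a) : Nr S Z x a := ⟨0, Z.zero_mem, by rwa [sub_zero]⟩

theorem nr_bot : Nr S ⊥ x a ↔ S.Bd x a :=
  ⟨fun ⟨z, p, q⟩ => by rwa [AddSubgroup.mem_bot.1 p, sub_zero] at q, Nr.bd⟩

/-- finite groups: average the small part of the defect -/
theorem fin_hu {Q : Type*} [AddCommGroup Q] [Finite Q] {σ K : ℝ}
    (hZ : ∀ v ∈ Z, ∀ c < σ, S.Bd v c → v = 0) (hK : 4 * K < σ) (h : Q → V)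
    (hd : ∀ a b, Nr S Z (h (a + b) - h a - h b) K) :
    ∃ t : Q → V, (∀ a b, t (a + b) - t a - t b ∈ Z) ∧ ∀ a, S.Bd (h a - t a) K := by
  have := Fintype.ofFinite Q
  choose z hz hb using hd
  set ε : Q → Q → V := fun a b => h (a + b) - h a - h b - z a b with hε
  have co : ∀ a b y, ε a b + ε (a + b) y = ε b y + ε a (b + y) := fun a b y => by
    have e : ε a b + ε (a + b) y - (ε b y + ε a (b + y)) =
        z b y + z a (b + y) - (z a b + z (a + b) y) := by
      simp only [hε, add_assoc a b y]; abel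
    rw [← sub_eq_zero]
    refine hZ _ (e ▸ Z.sub_mem (Z.add_mem (hz _ _) (hz _ _)) (Z.add_mem (hz _ _) (hz _ _))) _
      (show K + K + (K + K) < σ by linarith)
      (S.sub (S.add (hb _ _) (hb _ _)) (S.add (hb _ _) (hb _ _)))
  have M : (0 : ℝ) < Fintype.card Q := Nat.cast_pos.2 Fintype.card_pos
  refine ⟨fun a => h a + (Fintype.card Q : ℝ)⁻¹ • ∑ y, ε a y, fun a b => ?_, fun a => ?_⟩
  · have e := sum_congr (rfl : (univ : Finset Q) = univ) fun y _ => co a b y
    rw [sum_add_distrib, sum_add_distrib, sum_const, card_univ, ← Nat.cast_smul_eq_nsmul ℝ,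
      show ∑ y, ε a (b + y) = _ from Equiv.sum_comp (Equiv.addLeft b) (ε a)] at e
    have e2 := congrArg ((Fintype.card Q : ℝ)⁻¹ • ·) e
    simp only [smul_add, inv_smul_smul₀ M.ne'] at e2
    convert hz a b using 1
    have e3 : z a b = h (a + b) - h a - h b - ε a b := by simp only [hε]; abel
    dsimp only
    rw [eq_sub_of_add_eq' e2, e3]; abel
  · have := S.smul (Fintype.card Q : ℝ)⁻¹ (bd_sum univ (f := ε a) fun y _ => hb a y)
    rw [abs_of_pos (inv_pos.2 M), card_univ, inv_mul_cancel_left₀ M.ne'] at this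
    simpa using bd_neg this

/-- small sign sums are approximately respected -/
theorem apx_sum {G : Type*} [AddCommGroup G] {N : G → ℝ} {ψ : G → V} {K : ℝ} (hK : 0 ≤ K)
    (h0 : N 0 = 0) (hn : ∀ u, N (-u) = N u) (ha : ∀ u v, N (u + v) ≤ N u + N v)
    (h : ∀ u v, N u ≤ 1 → N v ≤ 1 → Nr S Z (ψ (u + v) - ψ u - ψ v) K) {κ : Type*} {δ : ℝ}
    (hδ : 0 ≤ δ) (v : κ → G) (hv : ∀ j, N (v j) ≤ δ) (k : κ → ℤ) (hk : ∀ j, |k j| ≤ 1)
    (s : Finset κ) (hs : s.card * δ ≤ 1) :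
    Nr S Z (ψ (∑ j ∈ s, k j • v j) - ∑ j ∈ s, k j • ψ (v j)) ((3 * s.card + 1) * K) ∧
      N (∑ j ∈ s, k j • v j) ≤ s.card * δ := by
  classical
  have z : Nr S Z (ψ 0) K :=
    (h 0 0 (by simp [h0]) (by simp [h0])).neg.of (by simp) le_rfl
  induction s using Finset.induction_on with
  | empty => exact ⟨z.of (by simp) (by simp), by simp [h0]⟩
  | insert j s hj ih =>
    rw [card_insert_of_notMem hj, Nat.cast_succ, add_mul, one_mul] at hs
    have h1 : 0 ≤ (s.card : ℝ) * δ := by positivity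
    obtain ⟨h2, h3⟩ := ih (by linarith)
    have h4 : Nr S Z (ψ (k j • v j) - k j • ψ (v j)) (2 * K) ∧ N (k j • v j) ≤ δ := by
      obtain e | e | e : k j = -1 ∨ k j = 0 ∨ k j = 1 := by have := abs_le.1 (hk j); omega
      · refine ⟨(z.sub (h (v j) (-v j) (by linarith [hv j]) (by linarith [hv j, hn (v j)]))).of
          (by simp [e]; abel) (by linarith), by simp [e, hn, hv]⟩
      · exact ⟨z.of (by simp [e]) (by linarith), by simp [e, h0, hδ]⟩
      · exact ⟨(Nr.mem Z.zero_mem).of (by simp [e]) (by linarith), by simp [e, hv]⟩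
    rw [sum_insert hj, sum_insert hj, card_insert_of_notMem hj, Nat.cast_succ]
    exact ⟨((h _ _ (by linarith [h4.2]) (h3.trans (by linarith))).add (h2.add h4.1)).of
      (by abel) (by linarith), (ha _ _).trans (by linarith [h4.2])⟩

/-- **Hyers-Ulam on a lattice ball modulo a separated subgroup** -/
theorem hut {ι : Type*} [Fintype ι] {E : Type*} [NormedAddCommGroup E] [NormedSpace ℝ E]
    (T : (ι → ℝ) →L[ℝ] E) (hT : Function.Injective T) {σ K : ℝ}
    (hZ : ∀ v ∈ Z, ∀ c < σ, S.Bd v c → v = 0) (hK : 0 ≤ K)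
    (hσ : 12 * (Fintype.card ι + 1) * K < σ) (ψ : (ι → ℤ) → V)
    (h : ∀ u v, ‖T (ci u)‖ ≤ 1 → ‖T (ci v)‖ ≤ 1 → Nr S Z (ψ (u + v) - ψ u - ψ v) K) :
    ∃ L : (ι → ℝ) →ₗ[ℝ] V, ∀ u, ‖T (ci u)‖ ≤ 1 / (Fintype.card ι + 1) →
      Nr S Z (ψ u - L (ci u)) ((6 * Fintype.card ι + 5) * K) := by
  classical
  set δ : ℝ := 1 / (Fintype.card ι + 1)
  have hδ : 0 ≤ δ := by positivity
  obtain ⟨r, v, hr, hv, hi, hc⟩ := mv ci (finite_ball T hT δ)
  rw [finrank_fintype_fun_eq_card] at hr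
  have hr0 : (r : ℝ) ≤ Fintype.card ι := by exact_mod_cast hr
  have hr' : (r : ℝ) * δ ≤ 1 := by
    rw [mul_one_div, div_le_one (by positivity)]; linarith
  have hs := fun k hk => apx_sum (N := fun u => ‖T (ci u)‖) hK (by simp) (by simp)
    (fun u v => by rw [map_add, map_add]; exact norm_add_le _ _) h hδ v hv k hk univ
    (by simpa using hr')
  simp only [card_univ, Fintype.card_fin] at hs
  set W := Submodule.span ℝ (Set.range fun i => ci (v i))
  let c : sat W → Fin r → ℝ := fun w i => hi.repr ⟨ci w, w.2⟩ i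
  have c1 : ∀ w, ci w.1 = ∑ i, c w i • ci (v i) := fun w => by
    have := hi.linearCombination_repr ⟨ci w, w.2⟩
    rw [Finsupp.linearCombination_apply, Finsupp.sum_fintype _ _ (by simp)] at this
    exact this.symm
  have c2 : ∀ w w' i, c (w + w') i = c w i + c w' i := fun w w' i => by
    have : (⟨ci (w + w' : sat W), (w + w').2⟩ : W) = ⟨ci w, w.2⟩ + ⟨ci w', w'.2⟩ :=
      Subtype.ext (map_add ci w.1 w'.1)
    simp only [c, this, map_add, Finsupp.add_apply]
  have c0 : ∀ i, c 0 i = 0 := fun i => by simpa using c2 0 0 i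
  have c3 : ∀ w i, c (-w) i = -c w i := fun w i => by
    have := c2 w (-w) i
    rw [add_neg_cancel, c0] at this; linarith
  let u : sat W → ι → ℤ := fun w => w.1 - ∑ i, ⌊c w i⌋ • v i
  have u0 : ∀ w, ci (u w) = ∑ i, Int.fract (c w i) • ci (v i) := fun w => by
    rw [map_sub, ci_sum, c1, ← sum_sub_distrib]
    exact sum_congr rfl fun i _ => by rw [← sub_smul, Int.self_sub_floor]
  have u1 : ∀ w, ‖T (ci (u w))‖ ≤ 1 := fun w => by
    rw [u0, map_sum]
    refine (norm_sum_le_of_le _ (n := fun _ => δ) fun i _ => ?_).trans (by simpa using hr')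
    rw [map_smul, norm_smul, Real.norm_of_nonneg (Int.fract_nonneg _)]
    exact (mul_le_of_le_one_left (norm_nonneg _) (Int.fract_lt_one _).le).trans (hv i)
  let Λ : AddSubgroup (sat W) :=
    { carrier := {w | ∀ i, ∃ n : ℤ, c w i = n}
      add_mem' := fun {a b} p q i => by
        obtain ⟨n, e⟩ := p i
        obtain ⟨m, e'⟩ := q i
        exact ⟨n + m, by rw [c2, e, e', Int.cast_add]⟩
      zero_mem' := fun i => ⟨0, by rw [c0, Int.cast_zero]⟩
      neg_mem' := fun {a} p i => by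
        obtain ⟨n, e⟩ := p i
        exact ⟨-n, by rw [c3, e, Int.cast_neg]⟩ }
  have q1 : ∀ w w' : sat W, (w : sat W ⧸ Λ) = w' ↔
      ∀ i, Int.fract (c w i) = Int.fract (c w' i) := fun w w' => by
    rw [eq_comm, QuotientAddGroup.eq]
    refine forall_congr' fun i => ?_
    rw [Int.fract_eq_fract, c2, c3, neg_add_eq_sub]
  have : Finite {x : ι → ℤ | ‖T (ci x)‖ ≤ 1} := (finite_ball T hT 1).to_subtype
  have : Finite (sat W ⧸ Λ) := Finite.of_injective
    (fun q : sat W ⧸ Λ => (⟨u q.out, u1 _⟩ : {x : ι → ℤ | ‖T (ci x)‖ ≤ 1})) fun q q' e => by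
      rw [← q.out_eq', ← q'.out_eq', q1]
      exact Fintype.linearIndependent_iffₛ.1 hi _ _
        ((u0 _).symm.trans ((congrArg (fun x => ci x.1) e).trans (u0 _)))
  let h0 : sat W → V := fun w => ψ (u w) - ∑ i, Int.fract (c w i) • ψ (v i)
  have q2 : ∀ w : sat W, h0 (w : sat W ⧸ Λ).out = h0 w := fun w => by
    have e := (q1 _ _).1 (w : sat W ⧸ Λ).out_eq'
    have e' : u (w : sat W ⧸ Λ).out = u w := ci_inj (by simp only [u0, e])
    simp only [h0, e, e']
  have fl : ∀ w, ∑ i, ⌊c w i⌋ • ψ (v i) = ∑ i, c w i • ψ (v i) - ∑ i, Int.fract (c w i) • ψ (v i) :=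
    fun w => by
      rw [← sum_sub_distrib]
      exact sum_congr rfl fun i _ => by
        rw [← sub_smul, Int.self_sub_fract, Int.cast_smul_eq_zsmul]
  obtain ⟨t, t1, t2⟩ := fin_hu (K := (3 * r + 3) * K) hZ (by nlinarith)
    (fun q : sat W ⧸ Λ => h0 q.out) fun q q' => by
      obtain ⟨w, rfl⟩ := QuotientAddGroup.mk_surjective q
      obtain ⟨w', rfl⟩ := QuotientAddGroup.mk_surjective q'
      rw [← QuotientAddGroup.mk_add, q2, q2, q2]
      have e := hs (fun i => ⌊c (w + w') i⌋ - ⌊c w i⌋ - ⌊c w' i⌋) fun i => by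
        have := Int.le_floor_add (c w i) (c w' i)
        have := Int.le_floor_add_floor (c w i) (c w' i)
        rw [c2, abs_le]; omega
      have e1 : u w + u w' = u (w + w') + ∑ i, (⌊c (w + w') i⌋ - ⌊c w i⌋ - ⌊c w' i⌋) • v i := by
        simp only [u, sub_smul, sum_sub_distrib, Submodule.coe_add]; abel
      have e2 := h _ _ (u1 w) (u1 w')
      rw [e1] at e2
      refine ((e2.sub (h _ _ (u1 (w + w')) (e.2.trans hr'))).sub e.1).of ?_ (by linarith)
      have e3 : ∑ i, c (w + w') i • ψ (v i) = ∑ i, c w i • ψ (v i) + ∑ i, c w' i • ψ (v i) := by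
        simp only [c2, add_smul, sum_add_distrib]
      simp only [h0, sub_smul, sum_sub_distrib, fl, e3]; abel
  obtain ⟨g, hg⟩ := extend_sat W (AddMonoidHom.mk'
    (fun w => ((∑ i, c w i • ψ (v i) + t w : V) : V ⧸ Z)) fun w w' => by
      rw [← QuotientAddGroup.mk_add, eq_comm, QuotientAddGroup.eq, QuotientAddGroup.mk_add]
      convert t1 w w' using 1
      simp only [c2, add_smul, sum_add_distrib]; abel)
  refine ⟨Fintype.linearCombination ℝ fun i => (g (Pi.single i 1)).out, fun w hw => ?_⟩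
  obtain ⟨a, ha, e⟩ := hc w hw
  have hW : w ∈ sat W := by
    rw [mem_sat, e]
    exact Submodule.sum_mem _ fun i _ => W.smul_mem _ (Submodule.subset_span ⟨i, rfl⟩)
  have e1 : ∀ i, c ⟨w, hW⟩ i = a i :=
    Fintype.linearIndependent_iffₛ.1 hi _ _ ((c1 ⟨w, hW⟩).symm.trans e)
  have e2 := hs (fun i => ⌊c ⟨w, hW⟩ i⌋) fun i => by
    have := abs_le.1 (ha i)
    rw [e1, abs_le]
    exact ⟨Int.le_floor.2 (by simpa using this.1), Int.floor_le_iff.2 (by push_cast; linarith)⟩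
  have e3 := h _ _ (e2.2.trans hr') (u1 ⟨w, hW⟩)
  rw [show ∑ i, ⌊c ⟨w, hW⟩ i⌋ • v i + u ⟨w, hW⟩ = w by simp [u]] at e3
  have e4 := t2 (⟨w, hW⟩ : sat W)
  rw [q2] at e4
  have e5 : ((Fintype.linearCombination ℝ (fun i => (g (Pi.single i 1)).out) (ci w) : V) : V ⧸ Z) =
      g w := by
    rw [Fintype.linearCombination_apply, QuotientAddGroup.mk_sum]
    conv_rhs => rw [pi_eq_sum_univ' w, map_sum]
    exact sum_congr rfl fun i _ => by
      rw [ci_apply, Int.cast_smul_eq_zsmul, QuotientAddGroup.mk_zsmul, QuotientAddGroup.out_eq',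
        map_zsmul]
  rw [hg ⟨w, hW⟩, AddMonoidHom.mk'_apply, QuotientAddGroup.eq] at e5
  refine (((e3.add e2.1).add (Nr.bd e4)).add (Nr.mem e5)).of ?_ (by nlinarith)
  simp only [h0, fl]; abel

/-- **Hyers-Ulam on a lattice ball** -/
theorem hu {ι : Type*} [Fintype ι] {E : Type*} [NormedAddCommGroup E] [NormedSpace ℝ E]
    (T : (ι → ℝ) →L[ℝ] E) (hT : Function.Injective T) {K : ℝ} (hK : 0 ≤ K) (ψ : (ι → ℤ) → V)
    (h : ∀ u v, ‖T (ci u)‖ ≤ 1 → ‖T (ci v)‖ ≤ 1 → S.Bd (ψ (u + v) - ψ u - ψ v) K) :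
    ∃ L : (ι → ℝ) →ₗ[ℝ] V, ∀ u, ‖T (ci u)‖ ≤ 1 / (Fintype.card ι + 1) →
      S.Bd (ψ u - L (ci u)) ((6 * Fintype.card ι + 5) * K) := by
  simpa only [nr_bot] using hut (S := S) (Z := ⊥) T hT (σ := 12 * (Fintype.card ι + 1) * K + 1)
    (fun v hv _ _ _ => AddSubgroup.mem_bot.1 hv) hK (by linarith) ψ
    fun u v p q => Nr.bd (h u v p q)

end Crest.Agent.N49.Hu
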